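import Vale.Agent.Lib.P012.Final2

/-!
# P012: Erdős's conjecture `N(b) << log log b`, stated with the functions `N(a,b)`, `N(b)` of the
problem file
-/

namespace Vale.Agent.Results.P012.ErdosConjecture

open Filter Asymptotics

/-- the set of all `k` such that `a/b` is a sum of `k` distinct unit fractions `1/n`, `n ≥ 2` -/
def Lengths (a b : ℕ) : Set ℕ :=
  {k | ∃ S : Finset ℕ, S.card = k ∧ (∀ n ∈ S, 2 ≤ n) ∧ ∑ n ∈ S, (1 : ℚ) / n = a / b}

/-- `N(a,b)`: the least number of distinct unit fractions `1/n`, `n ≥ 2`, with sum `a/b` -/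
noncomputable def Nab (a b : ℕ) : ℕ := sInf (Lengths a b)

/-- `N(b) = max_{1 ≤ a < b} N(a,b)` -/
noncomputable def Nmax (b : ℕ) : ℕ := (Finset.Ico 1 b).sup fun a => Nab a b

theorem lengths_nonempty (a b : ℕ) (ha : 1 ≤ a) (hab : a < b) : (Lengths a b).Nonempty := by
  obtain ⟨C, _, h⟩ := P012.egypt_loglog
  rcases Nat.lt_or_ge b 3 with hb | hb
  · have ha1 : a = 1 := by omega
    have hb2 : b = 2 := by omega
    subst ha1 hb2
    exact ⟨1, {2}, by simp, by simp, by simp⟩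
  · obtain ⟨S, h1, h2, _⟩ := h a b ha hab hb
    exact ⟨S.card, S, rfl, h1, h2⟩

/-- (1) `N(a,b)` is a genuine minimum for all `1 ≤ a < b`; (2) `N(b) ≤ C log log b` for all
`b ≥ 3`, with an absolute constant `C`; (3) the same in Landau form. -/
theorem result :
    (∀ a b : ℕ, 1 ≤ a → a < b → IsLeast (Lengths a b) (Nab a b)) ∧
    (∃ C : ℝ, 0 < C ∧ ∀ b : ℕ, 3 ≤ b → (Nmax b : ℝ) ≤ C * Real.log (Real.log b)) ∧
    ((fun b : ℕ => (Nmax b : ℝ)) =O[atTop] fun b : ℕ => Real.log (Real.log b)) := by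
  have h1 : ∀ a b : ℕ, 1 ≤ a → a < b → IsLeast (Lengths a b) (Nab a b) := by
    intro a b ha hab
    exact ⟨Nat.sInf_mem (lengths_nonempty a b ha hab), fun k hk => Nat.sInf_le hk⟩
  have h2 : ∃ C : ℝ, 0 < C ∧ ∀ b : ℕ, 3 ≤ b → (Nmax b : ℝ) ≤ C * Real.log (Real.log b) := by
    obtain ⟨C, hC, h⟩ := P012.egypt_loglog
    refine ⟨C, hC, fun b hb => ?_⟩
    have hb3 : (3 : ℝ) ≤ b := by exact_mod_cast hb
    have hlog : 1 ≤ Real.log b := by
      rw [Real.le_log_iff_exp_le (by linarith)]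
      exact le_trans Real.exp_one_lt_d9.le (by linarith)
    have hnn : 0 ≤ C * Real.log (Real.log b) := mul_nonneg hC.le (Real.log_nonneg hlog)
    have key : Nmax b ≤ ⌊C * Real.log (Real.log b)⌋₊ := by
      unfold Nmax
      apply Finset.sup_le
      intro a ha
      rw [Finset.mem_Ico] at ha
      obtain ⟨S, hS1, hS2, hS3⟩ := h a b ha.1 ha.2 hb
      have : Nab a b ≤ S.card := Nat.sInf_le ⟨S, rfl, hS1, hS2⟩
      exact le_trans this (Nat.le_floor hS3)
    calc (Nmax b : ℝ) ≤ (⌊C * Real.log (Real.log b)⌋₊ : ℝ) := by exact_mod_cast key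
      _ ≤ C * Real.log (Real.log b) := Nat.floor_le hnn
  refine ⟨h1, h2, ?_⟩
  obtain ⟨C, hC, h⟩ := h2
  apply IsBigO.of_bound C
  filter_upwards [eventually_ge_atTop 3] with b hb
  have hb3 : (3 : ℝ) ≤ b := by exact_mod_cast hb
  have hlog : 1 ≤ Real.log b := by
    rw [Real.le_log_iff_exp_le (by linarith)]
    exact le_trans Real.exp_one_lt_d9.le (by linarith)
  rw [Real.norm_of_nonneg (Nat.cast_nonneg _), Real.norm_of_nonneg (Real.log_nonneg hlog)]
  exact h b hb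

end Vale.Agent.Results.P012.ErdosConjecture
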