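import Vale.Agent.Lib.P012.Final

/-!
# P012: `N(b) = O((log log b)^2)`, stated with the functions `N(a,b)` and `N(b)` of the problem
-/

namespace Vale.Agent.Results.P012.OrderOfGrowth

open Filter Asymptotics

/-- `N(a,b)`: the least number of distinct unit fractions `1/n`, `n ≥ 2`, with sum `a/b` -/
noncomputable def Nab (a b : ℕ) : ℕ :=
  sInf {k | ∃ S : Finset ℕ, S.card = k ∧ (∀ n ∈ S, 2 ≤ n) ∧ ∑ n ∈ S, (1 : ℚ) / n = a / b}

/-- `N(b) = max_{1 ≤ a < b} N(a,b)` -/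
noncomputable def Nmax (b : ℕ) : ℕ := (Finset.Ico 1 b).sup fun a => Nab a b

theorem result :
    (fun b : ℕ => (Nmax b : ℝ)) =O[atTop] fun b : ℕ => (Real.log (Real.log b)) ^ 2 := by
  obtain ⟨C, hC, h⟩ := P012.egypt_bound
  apply IsBigO.of_bound C
  filter_upwards [eventually_ge_atTop 3] with b hb
  rw [Real.norm_of_nonneg (Nat.cast_nonneg _), Real.norm_of_nonneg (by positivity)]
  have hnn : 0 ≤ C * (Real.log (Real.log b)) ^ 2 := by positivity
  have key : Nmax b ≤ ⌊C * (Real.log (Real.log b)) ^ 2⌋₊ := by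
    unfold Nmax
    apply Finset.sup_le
    intro a ha
    rw [Finset.mem_Ico] at ha
    obtain ⟨S, h1, h2, h3⟩ := h a b ha.1 ha.2 hb
    have : Nab a b ≤ S.card := Nat.sInf_le ⟨S, rfl, h1, h2⟩
    exact le_trans this (Nat.le_floor h3)
  calc (Nmax b : ℝ) ≤ (⌊C * (Real.log (Real.log b)) ^ 2⌋₊ : ℝ) := by exact_mod_cast key
    _ ≤ C * (Real.log (Real.log b)) ^ 2 := Nat.floor_le hnn

end Vale.Agent.Results.P012.OrderOfGrowth
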