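import Vale.Agent.Lib.P012.Final

/-!
# P012: arbitrarily large `N` all of whose smaller numbers are sums of `O((log log N)^2)` distinct
divisors of `N`
-/

namespace Vale.Agent.Results.P012.PracticalNumbers

open Real

theorem result : ∃ C : ℝ, 0 < C ∧ ∀ X : ℕ, ∃ N : ℕ, X ≤ N ∧ ∀ m < N,
    ∃ D : Finset ℕ, (∀ d ∈ D, d ∣ N) ∧ ∑ d ∈ D, d = m ∧
      (D.card : ℝ) ≤ C * (log (log N)) ^ 2 := by
  refine ⟨16 * 10 ^ 6, by positivity, ?_⟩
  intro X
  obtain ⟨N, h, hN, hrep, hh⟩ := P012.main_rep (X + 3)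
  set u := X + 3 with hu
  have hX : X ≤ N := by
    have h1 : X < 2 ^ X := Nat.lt_two_pow_self
    have h2 : X < 2 ^ u := lt_of_lt_of_le h1 (Nat.pow_le_pow_right (by norm_num) (by omega))
    have h3 : 2 ^ u < 2 ^ (2 ^ u) := Nat.lt_two_pow_self
    omega
  refine ⟨N, hX, ?_⟩
  have hlog : ((u : ℝ) + 1) ≤ 4 * log (log N) := by
    have h1 : ((2 : ℝ) ^ (2 ^ u : ℕ)) ≤ N := by exact_mod_cast hN
    have h2 : log ((2 : ℝ) ^ (2 ^ u : ℕ)) ≤ log N := log_le_log (by positivity) h1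
    rw [log_pow] at h2
    have h3 := log_two_gt_d9
    have h4 : ((2 ^ u : ℕ) : ℝ) = 2 * 2 ^ (u - 1) := by
      have : u = (u - 1) + 1 := by omega
      conv_lhs => rw [this]
      push_cast; ring
    rw [h4] at h2
    have h5 : (2 : ℝ) ^ (u - 1) ≤ log N := by
      have : (0 : ℝ) < 2 ^ (u - 1) := by positivity
      nlinarith
    have h6 : log ((2 : ℝ) ^ (u - 1)) ≤ log (log N) := log_le_log (by positivity) h5
    rw [log_pow] at h6
    have h7 : ((u - 1 : ℕ) : ℝ) = (u : ℝ) - 1 := by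
      rw [Nat.cast_sub (by omega)]; norm_num
    rw [h7] at h6
    have h8 : (3 : ℝ) ≤ (u : ℝ) := by
      have : 3 ≤ u := by omega
      exact_mod_cast this
    nlinarith
  intro m hm
  obtain ⟨D, h1, h2, h3⟩ := hrep m hm
  refine ⟨D, h1, h2, ?_⟩
  have h4 : (D.card : ℝ) ≤ 10 ^ 6 * ((u : ℝ) + 1) ^ 2 := by
    have : D.card ≤ 10 ^ 6 * (u + 1) ^ 2 := le_trans h3 hh
    exact_mod_cast this
  have h5 : ((u : ℝ) + 1) ^ 2 ≤ (4 * log (log N)) ^ 2 := pow_le_pow_left₀ (by positivity) hlog 2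
  nlinarith

end Vale.Agent.Results.P012.PracticalNumbers
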